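import Vale.Agent.P263B15.Rows
import Vale.Agent.P246.T.CL
import Vale.Agent.P246.T.CC

/-! # P263B: the space `Z`, a tower of cell attachments -/

open Topology Set OnePoint

namespace Vale.Agent.P263B76

open Vale.Agent.P246.T Vale.Agent.P246.T.FM Vale.Agent.P263.AD.Freu Vale.Agent.P263B15
open Vale.Agent.P178.H551 (IsSm hur)

section Kit

variable {A B Γ : Type} [TopologicalSpace A] [TopologicalSpace B] {n : ℕ} {i : C(A, B)}
  {Φ : Γ → C(Dk n, B)}

theorem hzero_cells (h : CellData n Γ univ (range i) Φ) {k : ℕ} (hk : k ≠ n) :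
    HZero univ (range i) k := by
  obtain ⟨P⟩ := PR.main
  obtain ⟨ζ, hζ⟩ := FM.exists_fund P CC.main1 CL.main n
  exact (CL.main B n Γ univ (range i) Φ ζ hζ h).1 k hk

/-- cycles come from the subspace -/
theorem onto (hi : IsEmbedding i) (h : CellData n Γ univ (range i) Φ) {k : ℕ} (hk : k ≠ n)
    (c : Ch k B) (hc : RedCyc k c) : ∃ a : Ch k A, RedCyc k a ∧ Hg c (push i k a) := by
  obtain ⟨b, -, hb⟩ := hzero_cells h hk c (mem_univ_con _ _) (hc.rcyc _)
  obtain ⟨a, ha⟩ := exists_push_range hi hb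
  refine ⟨a, redCyc_of_push hi.injective ?_, b, by rw [ha, sub_sub_cancel]⟩
  rw [ha]
  exact hc.sub (redCyc_bd k b)

theorem rz_step (hi : IsEmbedding i) (h : CellData n Γ univ (range i) Φ) {k : ℕ} (hk : k ≠ n)
    (hA : RZ A k) : RZ B k := fun c hc => by
  obtain ⟨a, ha, hca⟩ := onto hi h hk c hc
  exact (hca.trans ((hA.hg ha).push_zero i)).exists_bd

theorem h2_step (hi : IsEmbedding i) (h : CellData n Γ univ (range i) Φ) {k : ℕ} (hk : k ≠ n)
    (hA : H2 A k) : H2 B k := fun c c' hc hc' => by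
  obtain ⟨a, ha, hca⟩ := onto hi h hk c hc
  obtain ⟨a', ha', hca'⟩ := onto hi h hk c' hc'
  rcases hA a a' ha ha' with h1 | h1 | h1
  · exact Or.inl (hca.trans (h1.push_zero i))
  · exact Or.inr (Or.inl (hca'.trans (h1.push_zero i)))
  · exact Or.inr (Or.inr (hca.trans ((h1.push i).trans hca'.symm)))

theorem rz_low [SimplyConnectedSpace A] (a₀ : A) : ∀ j ≤ 1, RZ A j := by
  intro j hj c hc
  rcases j with _ | _ | j
  · exact PR.exists_bd_zero c hc
  · exact Vale.Agent.P178.H551.bound_of_lft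
      (Vale.Agent.P178.H551.lft a₀ 0 fun k hk => absurd hk (Nat.not_lt_zero k)) 0 le_rfl c hc
  · omega

theorem sc_step (hS : STEPSC) (hi : IsEmbedding i) (h : CellData n Γ univ (range i) Φ) (hn : 2 ≤ n)
    [SimplyConnectedSpace A] (a₀ : A) : SimplyConnectedSpace B :=
  hS A B i a₀ hi n Γ Φ h hn inferInstance fun γ => by
    have h1 := (SimplyConnectedSpace.paths_homotopic γ (Path.refl a₀)).map i
    exact h1

/-- the image of the boundary of the cube bounds -/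
theorem bound_of_ex {m : ℕ} (φ : C(bdk (m + 1), A)) (Ψ : C(Dk (m + 1), B))
    (hΨ : ∀ x : bdk (m + 1), Ψ x = i (φ x)) {c : Ch m (bdk (m + 1))}
    (hc : push (PR.inc (bdk (m + 1))) m c = bd m (zt (m + 1))) :
    push i m (push φ m c) = bd m (push Ψ (m + 1) (zt (m + 1))) := by
  rw [push_bd, ← hc, ← push_comp, ← push_comp]
  congr 2
  exact ContinuousMap.ext fun x => (hΨ x).symm

/-- cycles in the first non-trivial degree come from the boundary of the cube -/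
theorem exists_sph (hK : KILL1) [SimplyConnectedSpace A] (a₀ : A) {m : ℕ}
    (hA : ∀ j ≤ m + 1, RZ A j) (a : Ch (m + 2) A) (ha : RedCyc (m + 2) a) :
    ∃ (φ : C(bdk (m + 3), A)) (c : Ch (m + 2) (bdk (m + 3))),
      push (PR.inc (bdk (m + 3))) (m + 2) c = bd (m + 2) (zt (m + 3)) ∧
        Hg a (push φ (m + 2) c) := by
  obtain ⟨σ, hσ, b, hb⟩ := Vale.Agent.P178.H551.hur_surj
    (Vale.Agent.P178.H551.lft a₀ m fun k hk c hc => hA (k + 2) (by omega) c hc) a ha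
  obtain ⟨φ, c, h1, h2⟩ := hK A a₀ (m + 1) σ hσ
  exact ⟨φ, c, h1, Hg.trans ⟨b, hb.symm⟩ h2.symm⟩

theorem coc_hg {p : ℕ} {u : Fn p A} (hu : IsCoc u) {c c' : Ch p A} (h : Hg c c') : u c = u c' := by
  obtain ⟨b, hb⟩ := h
  have := hu b
  rwa [hb, map_sub, sub_eq_zero] at this

/-- concatenation -/
theorem pn_of (hK : KILL2) (hi : IsEmbedding i) (a₀ : A) {m : ℕ} (hm : 1 ≤ m)
    (hL : Lft (range i) m) (hE : ∀ φ : C(bdk (m + 1), A), Ex i φ) : PN B (i a₀) m := by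
  intro f hf
  obtain ⟨K, h0, h1, h2⟩ := hL (f.comp (qD m)) (ContinuousMap.const _ (i a₀))
    (fun x => by
      change i a₀ = f (qD m x.1)
      rw [qD_bd x.2, hf]) fun _ => ⟨a₀, rfl⟩
  choose g hg using h2
  have hc : Continuous g := by
    rw [hi.continuous_iff, show i ∘ g = fun x => K (1, x) from funext hg]
    fun_prop
  obtain ⟨H, k0, k1, k2⟩ := hK A B i a₀ m hE ⟨g, hc⟩ fun x hx =>
    hi.injective ((hg x).trans (h1 1 ⟨x, hx⟩))
  let f₁ : C(Dk m, B) := ⟨fun x => K (1, x), by fun_prop⟩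
  let P : (f.comp (qD m)).HomotopyRel f₁ (bdk m) :=
    ⟨⟨K, h0, fun _ => rfl⟩, fun t x hx => by
      change K (t, x) = f (qD m x)
      rw [h1 t ⟨x, hx⟩, qD_bd hx, hf]
      rfl⟩
  let Q : f₁.HomotopyRel (ContinuousMap.const _ (i a₀)) (bdk m) :=
    ⟨⟨H, fun x => (k0 x).trans (hg x), k1⟩, fun t x hx => by
      change H (t, x) = K (1, x)
      rw [k2 t x hx, h1 1 ⟨x, hx⟩]
      rfl⟩
  let R := P.trans Q
  have hR : ∀ t (x : Dk m), ‖(x : Fin m → ℝ)‖ = 1 → R (t, x) = i a₀ := fun t x hx => by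
    rw [R.eq_snd t (show x ∈ bdk m from hx)]
    rfl
  obtain ⟨G, hG⟩ := exists_descD hm R.toContinuousMap fun t x y hx hy =>
    (hR t x hx).trans (hR t y hy).symm
  refine ⟨G, fun x => ?_, fun x => ?_, fun t => ?_⟩
  · obtain ⟨y, rfl⟩ := qD_surjective hm x
    rw [hG]
    exact R.apply_zero y
  · obtain ⟨y, rfl⟩ := qD_surjective hm x
    rw [hG]
    exact R.apply_one y
  · obtain ⟨y, hy⟩ := qD_surjective hm (∞ : OnePoint (Fin m → ℝ))
    have h3 : ‖(y : Fin m → ℝ)‖ = 1 := by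
      by_contra h3
      rw [qD_of_ne h3] at hy
      exact OnePoint.coe_ne_infty _ hy
    rw [← hy, hG]
    exact hR t y h3

end Kit

/-- a stage of the tower -/
def Stage (q : ℕ) (A : Type) [TopologicalSpace A] (u : Fn (q + 1) A) (k : ℕ) : Prop :=
  ∃ (Z : Type) (_ : TopologicalSpace Z) (i : C(A, Z)) (v : Fn (q + 1) Z), T2Space Z ∧ IsCoc v ∧
    (∀ c, v (push i (q + 1) c) = u c) ∧ SimplyConnectedSpace Z ∧ ∀ j ≤ k, RZ Z j

section Tower

variable {q : ℕ} {A : Type} [TopologicalSpace A] {u : Fn (q + 1) A}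

theorem stage_one (hA : ATT) (h1 : EXT1) (hS : STEPSC) (h3 : KILL3) (hq : 1 ≤ q) [T2Space A]
    [PathConnectedSpace A] (a₀ : A) (hu : IsCoc u) : Stage q A u 1 := by
  obtain ⟨B, _, i, Φ, hT, hi, hC, hΦ⟩ := hA A 2 (by omega) C(bdk 2, A) id
  obtain ⟨v, hv, hvu⟩ := h1 A B i hi 2 _ Φ hC (q + 1) u hu (by omega)
  have hsc : SimplyConnectedSpace B := hS A B i a₀ hi 2 _ Φ hC le_rfl inferInstance
    (h3 A B i a₀ fun φ => ⟨Φ φ, hΦ φ⟩)
  exact ⟨B, inferInstance, i, v, hT, hv, hvu, hsc, rz_low (i a₀)⟩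

theorem stage_succ (hA : ATT) (h1 : EXT1) (hS : STEPSC) (hK : KILL1) (a₀ : A) {k : ℕ}
    (hk : k + 2 ≤ q) (h : Stage q A u (k + 1)) : Stage q A u (k + 2) := by
  obtain ⟨Z, _, i, v, hT, hv, hvu, hsc, hrz⟩ := h
  obtain ⟨B, _, j, Φ, hT', hj, hC, hΦ⟩ := hA Z (k + 3) (by omega) C(bdk (k + 3), Z) id
  obtain ⟨w, hw, hwv⟩ := h1 Z B j hj (k + 3) _ Φ hC (q + 1) v hv (by omega)
  refine ⟨B, inferInstance, j.comp i, w, hT', hw, fun c => by rw [push_comp, hwv, hvu],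
    sc_step hS hj hC (by omega) (i a₀), fun l hl => ?_⟩
  rcases Nat.lt_or_ge l (k + 2) with h2 | h2
  · exact rz_step hj hC (by omega) (hrz l (by omega))
  · obtain rfl : l = k + 2 := by omega
    intro c hc
    obtain ⟨a, ha, hca⟩ := onto hj hC (by omega) c hc
    obtain ⟨φ, e, he, hae⟩ := exists_sph hK (i a₀) hrz a ha
    refine (hca.trans ((hae.push j).trans ?_)).exists_bd
    rw [bound_of_ex φ (Φ φ) (hΦ φ) he]
    exact hg_bd _

theorem stage_all (hA : ATT) (h1 : EXT1) (hS : STEPSC) (hK : KILL1) (h3 : KILL3) (hq : 1 ≤ q)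
    [T2Space A] [PathConnectedSpace A] (a₀ : A) (hu : IsCoc u) (k : ℕ) (hk : k + 1 ≤ q) :
    Stage q A u (k + 1) := by
  induction k with
  | zero => exact stage_one hA h1 hS h3 hq a₀ hu
  | succ k ih => exact stage_succ hA h1 hS hK a₀ hk (ih (by omega))

end Tower

theorem zmod_cases (a b : ZMod 2) : a = 0 ∨ b = 0 ∨ a - b = 0 := by
  revert a b
  decide

/-- **row ZEX** -/
theorem zex (hA : ATT) (h1 : EXT1) (h2 : EXT2) (hS : STEPSC) (hK : KILL1) (hK2 : KILL2)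
    (h3 : KILL3) : ZEX := by
  intro q hq A _ _ _ a₀ u hu
  obtain ⟨m, rfl⟩ : ∃ m, q = m + 1 := ⟨q - 1, by omega⟩
  obtain ⟨Z, _, i, v, hT, hv, hvu, hsc, hrz⟩ := stage_all hA h1 hS hK h3 hq a₀ hu m le_rfl
  -- the cells of dimension `q + 2`
  let Γ : Type := {φ : C(bdk (m + 3), Z) // ∀ c : Ch (m + 2) (bdk (m + 3)),
    push (PR.inc (bdk (m + 3))) (m + 2) c = bd (m + 2) (zt (m + 3)) → v (push φ (m + 2) c) = 0}
  obtain ⟨B, _, j, Φ, hT', hj, hC, hΦ⟩ := hA Z (m + 3) (by omega) Γ Subtype.val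
  obtain ⟨-, e₀, he₀, -⟩ := hK Z (i a₀) (m + 1) (ContinuousMap.const _ (i a₀)) fun _ _ _ => rfl
  obtain ⟨w, hw, hwv⟩ := h2 Z B j hj (m + 2) Γ Φ hC v hv fun g c hc => by
    rw [← bound_of_ex g.1 (Φ g) (hΦ g) he₀] at hc
    rw [PR.push_injective hj.injective _ hc]
    exact g.2 e₀ he₀
  have hscB : SimplyConnectedSpace B := sc_step hS hj hC (by omega) (i a₀)
  have hrzB : ∀ l ≤ m + 1, RZ B l := fun l hl => rz_step hj hC (by omega) (hrz l hl)
  have key : ∀ a : Ch (m + 2) Z, RedCyc (m + 2) a → v a = 0 → Hg (push j (m + 2) a) 0 := by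
    intro a ha hva
    obtain ⟨φ, e, he, hae⟩ := exists_sph hK (i a₀) hrz a ha
    let g : Γ := ⟨φ, fun c hc => by
      rw [PR.push_injective (f := PR.inc (bdk (m + 3))) Subtype.val_injective _ (hc.trans he.symm),
        ← coc_hg hv hae, hva]⟩
    refine (hae.push j).trans ?_
    rw [bound_of_ex φ (Φ g) (hΦ g) he]
    exact hg_bd _
  have hH : H2 B (m + 2) := by
    intro c c' hc hc'
    obtain ⟨a, ha, hca⟩ := onto hj hC (by omega) c hc
    obtain ⟨a', ha', hca'⟩ := onto hj hC (by omega) c' hc'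
    rcases zmod_cases (v a) (v a') with h4 | h4 | h4
    · exact Or.inl (hca.trans (key a ha h4))
    · exact Or.inr (Or.inl (hca'.trans (key a' ha' h4)))
    · refine Or.inr (Or.inr (hca.trans (Hg.trans ?_ hca'.symm)))
      obtain ⟨b, hb⟩ := key (a - a') (ha.sub ha') (by rw [map_sub, h4])
      exact ⟨b, by rw [hb, sub_zero, map_sub]⟩
  -- the cells of dimension `2 q + 2`
  obtain ⟨W, _, l, Ψ, hT'', hl, hD, hΨ⟩ := hA B (2 * (m + 1) + 1 + 1) (by omega)
    C(bdk (2 * (m + 1) + 1 + 1), B) id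
  obtain ⟨x, hx, hxw⟩ := h1 B W l hl _ _ Ψ hD (m + 2) w hw (by omega)
  have hscW : SimplyConnectedSpace W := sc_step hS hl hD (by omega) (j (i a₀))
  have hscR : SimplyConnectedSpace (range l) :=
    hl.toHomeomorph.symm.toHomotopyEquiv.simplyConnectedSpace
  refine ⟨W, inferInstance, l.comp (j.comp i), x, hT'', hx, fun c => ?_, hscW,
    fun r hr => rz_step hl hD (by omega) (hrzB r hr), h2_step hl hD (by omega) hH, ?_⟩
  · rw [push_comp, push_comp, hxw, hwv, hvu]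
  · exact pn_of hK2 hl (j (i a₀)) (by omega)
      (lft_of_range (n := 2 * (m + 1)) (fun k hk => hzero_cells hD (by omega)) le_rfl)
      fun φ => ⟨Ψ φ, hΨ φ⟩

end Vale.Agent.P263B76
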